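import Crest.Agent.X262.Sub4.Bas
import Crest.Agent.X262.Bnd.Defs

/-!
# Row 262, SUB (helper4), part 2: the numbers of a terminal extraction with centre of codimension two

* `extr`    : the discrepancy is one, `K · f = -1`, `(K + E) · f = -2`;
* `dif_int` : the different is effective, the coefficients of `K_Y` are integers.
-/

set_option autoImplicit false

open scoped KaehlerDifferential

noncomputable section

namespace Crest.Agent.X262.Sub4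

open Crest.Agent.X277 Crest.Agent.X277.BD Crest.Agent.X277.Pst Crest.Agent.X277.Lef
open Crest.Agent.X277.BD.Cyc (Rf plV)
open Crest.Agent.X277.BD.Br (On oP kP kP_mem)
open Crest.Agent.X262.Mod (IsMod Car Gz)
open Crest.Agent.X262.Geo Crest.Agent.X262.Loc Crest.Agent.X262.Slc57
open Crest.Agent.X262.Sark (TM SameP)
open Crest.Agent.X262.Bnd (Bs Ext)
open List (replicate)

variable {K : Type} [Field K] [Algebra ℂ K] [Algebra.EssFiniteType ℂ K] {n d : ℕ} {b : Bs n K}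
  {Z Y Z' : TM b} {E F V : RZ ℂ K} {W : PModel ℂ K} {H a : BD ℂ K}

/-- adjunction on all smooth models -/
def Adj (b : Bs n K) (d : ℕ) : Prop :=
  ∀ (P : PModel ℂ K) (H : BD ℂ K), H.Free → H ∈ On P → AdjAt P (kP P b) H d

omit [Algebra.EssFiniteType ℂ K] in
theorem on_of (hW : H ∈ On W) (h : Car H a) : a ∈ On W :=
  car_iff_On.1 ((car_of_On hW).trans (isMod_oP W).free h)

omit [Algebra.EssFiniteType ℂ K] in
theorem prm_E (h : Ext Z Y E) : Prm Z.H E := (h.prm E).2 (Or.inr rfl)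

omit [Algebra.EssFiniteType ℂ K] in
theorem car_ε (h : Ext Z Y E) : Car Z.H (Z.κ - Y.κ) := Z.car.sub (h.car.trans Z.mod.free Y.car)

theorem od_ε (h : Ext Z Y E) (hr : Z.r = Y.r) (hV : Prm (oP W) V) (h1 : Prm Y.H V) :
    od V (Z.κ - Y.κ) = 0 := by
  rw [map_sub, od_κ_eq Z hV (h.car.prm h1), od_κ_eq Y hV h1, hr, sub_self]

theorem od_sub_eq (Z : TM b) (hV : Prm (oP W) V) (h : Prm Z.H V) :
    od V (Z.κ - Z.r • kP W b) = 0 := by
  rw [map_sub, od_κ_eq Z hV h, map_nsmul, nsmul_eq_mul, sub_self]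

theorem od_sub_neg (Z : TM b) (hV : Prm (oP W) V) (h : ¬ Prm Z.H V) :
    (od V (Z.κ - Z.r • kP W b) : ℚ) / Z.r < 0 := by
  refine div_neg_of_neg_of_pos ?_ (Nat.cast_pos.2 Z.r_pos)
  rw [map_sub, map_nsmul, nsmul_eq_mul]
  exact_mod_cast sub_neg.2 (od_κ_lt Z hV h)

theorem dvd_of_div {x z : ℤ} {r : ℕ} (hr : 0 < r) (h : (x : ℚ) / r = z) : (r : ℤ) ∣ x := by
  rw [div_eq_iff (Nat.cast_pos.2 hr).ne'] at h
  exact ⟨z, by rw [mul_comm]; exact_mod_cast h⟩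

variable (hA : Adj b d) (hd : dim ℂ K = d + 2) (h : Ext Z Y E) (hr : Z.r = Y.r)
  (hW : Z.H ∈ On W)
include hA hd h hr hW

/-- **extraction** -/
theorem extr (hE : dim ℂ (cen Y.H E) = d) (hp : SameP Z.H Z'.H) (hκ : Z'.κ ∈ On W)
    (h0 : ∀ F, Prm (oP W) F → ¬ Prm Z.H F → dim ℂ (cen Y.H F) = d → Gz Y.H E F → Gz Y.H F E →
      dg F (Z'.κ :: replicate d Y.H) = 0) :
    od E (Z.κ - Y.κ) = Y.r ∧ dg E (Z'.κ :: replicate d Y.H) = -(Z'.r * dlV Y.H E) ∧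
      dg E ((kP W b + dv W E) :: replicate d Y.H) = -2 * dlV Y.H E := by
  classical
  have hY := on_of hW h.car
  have hE' := (car_of_On hW).prm (prm_E h)
  have hK : kP W b ∈ On W := kP_mem b
  have hA' := hA W Y.H Y.mod.free hY
  let C := cfg Y.mod hY hd hK hA'
  have hs : ∀ {V}, V ∈ C.s ↔ Prm (oP W) V ∧ ¬ Prm Y.H V ∧ dim ℂ (cen Y.H V) = d :=
    mem_cfg Y.mod hY hd hK hA'
  let t := C.s.filter fun F => F ≠ E ∧ Gz Y.H E F ∧ Gz Y.H F E
  have ht : t ⊆ C.s := Finset.filter_subset _ _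
  have he : E ∈ C.s := hs.2 ⟨hE', h.nE, hE⟩
  have h1 : ∀ V ∈ insert E t, V ∈ C.s ∧ Gz Y.H E V ∧ Gz Y.H V E := fun V hV => by
    rcases Finset.mem_insert.1 hV with rfl | hV
    · exact ⟨he, Gz.rfl, Gz.rfl⟩
    · exact ⟨ht hV, (Finset.mem_filter.1 hV).2.2⟩
  have h2 : ∀ V ∈ insert E t, ∀ F, ¬ Prm Y.H F → mx2 W Y.H d V F ≠ 0 → F ∈ insert E t := by
    intro V hV F h3 h4
    obtain ⟨h5, h6, h7⟩ := h1 V hV
    have h8 : F ∈ C.s := mem_ex2_of_mt Y.mod hY hd h3 h4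
    have h9 : Gz Y.H V F := by_contra fun h9 =>
      h4 (mt_eq_zero Y.mod.free hY (hs.1 h5).1 (hs.1 h5).2.2.le h9)
    have h10 : Gz Y.H F V := by_contra fun h10 => h4 ((mt_comm V F).trans
      (mt_eq_zero Y.mod.free hY (hs.1 h8).1 (hs.1 h8).2.2.le h10))
    by_cases hFE : F = E
    · exact hFE ▸ Finset.mem_insert_self _ _
    · exact Finset.mem_insert_of_mem (Finset.mem_filter.2 ⟨h8, hFE, h6.trans h9, h10.trans h7⟩)
  have h3 : ∀ V ∈ t, Prm (oP W) V := fun V hV => (hs.1 (ht hV)).1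
  have h4 : ∀ V ∈ t, ¬ Prm Z.H V := fun V hV h5 =>
    ((h.prm V).1 h5).elim (hs.1 (ht hV)).2.1 (Finset.mem_filter.1 hV).2.1
  have h5 : ∀ V ∈ insert E t, ∀ F, Prm (oP W) F → od F (Z'.κ - Z'.r • kP W b) ≠ 0 →
      mx2 W Y.H d V F ≠ 0 → F ∈ t := fun V hV F h6 h7 h8 => by
    have h9 : ¬ Prm Z.H F := fun h9 => h7 (od_sub_eq Z' h6 ((hp F).1 h9))
    exact (Finset.mem_insert.1 (h2 V hV F (fun h10 => h9 (h.car.prm h10)) h8)).resolve_left
      fun h10 => h9 (h10 ▸ prm_E h)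
  have hZ := (cfg_sol Y.mod hY hd hK hA' hK hκ Z'.r_pos h3 (fun V hV => h0 V (h3 V hV) (h4 V hV)
    (hs.1 (ht hV)).2.2 (h1 V (Finset.mem_insert_of_mem hV)).2.1
    (h1 V (Finset.mem_insert_of_mem hV)).2.2) fun V hV => h5 V (Finset.mem_insert_of_mem hV)).congr
    (u' := fun j => C.k j) fun V hV => by rw [cfg_k _ _ _ _ _ (h3 V hV)]
  have hY' := (cfg_sol Y.mod hY hd hK hA' hK (on_of hY Y.car) Y.r_pos (t := insert E t)
    (fun V hV => (hs.1 (h1 V hV).1).1) (fun V hV => dg_car Y.mod.free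
      (hs.1 (h1 V hV).1).1.dvs (hs.1 (h1 V hV).1).2.2.le Y.car)
    fun V hV F h6 h7 h8 => h2 V hV F (fun h9 => h7 (od_sub_eq Y h6 h9)) h8).congr
    (u' := fun j => C.k j) fun V hV => by rw [cfg_k _ _ _ _ _ (hs.1 (h1 V hV).1).1]
  have h6 : 0 < od E (Z.κ - Y.κ) := by
    rw [map_sub, od_κ_eq Z hE' (prm_E h), hr]
    exact sub_pos.2 (od_κ_lt Y hE' h.nE)
  obtain ⟨m, hm⟩ := Int.eq_ofNat_of_zero_le h6.le
  have hE2 := (cfg_sol Y.mod hY hd hK hA' (dv_mem E) (on_of hW (car_ε h)) (m := m) (by omega) h3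
    (fun V hV => dg_car' Z.mod (h3 V hV).dvs (h4 V hV) (all_con (car_ε h) (all_rp h.car d)))
    fun V hV F h7 h8 h9 => by
      have h10 : F ≠ E := by
        rintro rfl
        exact h8 (by rw [map_sub, map_nsmul, od_dv_self h7, hm]; simp)
      refine (Finset.mem_insert.1 (h2 V (Finset.mem_insert_of_mem hV) F (fun h11 => h8 ?_)
        h9)).resolve_left h10
      rw [map_sub, map_nsmul, od_ε h hr h7 h11, od_dv_ne h7 h10]
      simp).congr (u' := fun j => C.M j E) fun V hV => by rw [cfg_M _ _ _ _ _ (h3 V hV)]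
  obtain ⟨e1, e2, -, e3, -⟩ := Cfg.extr ht he (by simp [t]) hZ
    (fun V hV => od_sub_neg Z' (h3 V hV) fun h7 => h4 V hV ((hp V).2 h7)) hY'
    (od_sub_neg Y hE' h.nE) hE2
  refine ⟨?_, ?_, ?_⟩
  · rw [div_eq_iff (Nat.cast_pos.2 Y.r_pos).ne', map_sub, map_nsmul, nsmul_eq_mul] at e1
    rw [map_sub, od_κ_eq Z hE' (prm_E h), hr]
    have e4 : od E Y.κ - Y.r * od E (kP W b) = -1 * Y.r := by exact_mod_cast e1
    omega
  · have e4 := cfg_ev Y.mod hY hd hK hA' hK hκ Z'.r_pos hE' (h5 E (Finset.mem_insert_self _ _))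
    rw [Cfg.ev, ← cfg_k Y.mod hY hd hK hA' hE'] at e4
    have e5 := e4.symm.trans e2
    rw [div_eq_iff (Nat.cast_pos.2 Z'.r_pos).ne', cfg_δ] at e5
    have e6 : dg E (Z'.κ :: replicate d Y.H) = -dlV Y.H E * Z'.r := by exact_mod_cast e5
    rw [e6]
    ring
  · rwa [cfg_k _ _ _ _ _ hE', cfg_M _ _ _ _ _ hE', cfg_δ, ← dg_add] at e3

/-- **the different is effective; integrality** -/
theorem dif_int (ha : od E (Z.κ - Y.κ) = Y.r) (hF : Prm (oP W) F) (hne : F ≠ E)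
    (hM : 0 < dg E (dv W F :: replicate d Z.H)) :
    0 ≤ od F (Z.κ + (Z.κ - Y.κ) - Z.r • (kP W b + dv W E)) ∧ (Z.r : ℤ) ∣ od F Y.κ := by
  classical
  have hE' := (car_of_On hW).prm (prm_E h)
  have h1 : ∀ V, Prm (oP W) V → Prm Z.H V → od V (Z.κ - Y.κ - Z.r • dv W E) = 0 := by
    intro V h2 h3
    rw [map_sub, map_nsmul]
    by_cases h4 : V = E
    · rw [h4, ha, od_dv_self hE', hr]
      simp
    · rw [od_ε h hr h2 (((h.prm V).1 h3).resolve_right h4), od_dv_ne h2 h4]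
      simp
  have h2 : ∀ V, Prm (oP W) V → Prm Z.H V →
      od V (Z.κ + (Z.κ - Y.κ) - Z.r • (kP W b + dv W E)) = 0 := fun V h2 h3 => by
    rw [smul_add, add_sub_add_comm, map_add, od_sub_eq Z h2 h3, h1 V h2 h3, add_zero]
  by_cases hZ : Prm Z.H F
  · exact ⟨(h2 F hF hZ).ge, by
      rw [od_κ_eq Y hF (((h.prm F).1 hZ).resolve_right hne), hr]
      exact dvd_mul_right _ _⟩
  have hK : kP W b ∈ On W := kP_mem b
  have hA' := hA W Z.H Z.mod.free hW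
  let C := cfg Z.mod hW hd hK hA'
  have hs : ∀ {V}, V ∈ C.s ↔ Prm (oP W) V ∧ ¬ Prm Z.H V ∧ dim ℂ (cen Z.H V) = d :=
    mem_cfg Z.mod hW hd hK hA'
  have h3 : ∀ V ∈ C.s, Prm (oP W) V := fun V hV => (hs.1 hV).1
  have h4 : ∀ {a a' : BD ℂ K}, a ∈ On W → Car Z.H a' →
      (∀ V, Prm (oP W) V → Prm Z.H V → od V (a' - Z.r • a) = 0) →
      C.Sol C.s (fun V => dg V (a :: replicate d Z.H)) fun V => od V (a' - Z.r • a) / Z.r :=
    fun ha ha' h5 => cfg_sol Z.mod hW hd hK hA' ha (on_of hW ha') Z.r_pos h3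
      (fun V hV => dg_car Z.mod.free (h3 V hV).dvs (hs.1 hV).2.2.le ha')
      fun V _ U h6 h7 h8 => mem_ex2_of_mt Z.mod hW hd (fun h9 => h7 (h5 U h6 h9)) h8
  rw [← mt_eq hW hE'] at hM
  have h5 : F ∈ C.s := mem_ex2_of_mt Z.mod hW hd hZ hM.ne'
  have s1 := (h4 hK Z.car fun V => od_sub_eq Z).congr (u' := fun j => C.k j)
    fun V hV => by rw [cfg_k _ _ _ _ _ (h3 V hV)]
  have s2 := (h4 (dv_mem E) (car_ε h) h1).congr (u' := fun j => C.M j E)
    fun V hV => by rw [cfg_M _ _ _ _ _ (h3 V hV)]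
  have s3 := (h4 (add_mem hK (dv_mem E)) (Z.car.add (car_ε h)) h2).congr
    (u' := fun j => (C.k j : ℚ) + C.M j E + 0) fun V hV => by
      rw [cfg_k _ _ _ _ _ (h3 V hV), cfg_M _ _ _ _ _ (h3 V hV), dg_add, add_zero, Int.cast_add]
  have s4 : ∀ V ∈ C.s, (od V (Z.κ - Z.r • kP W b) : ℚ) / Z.r < 0 :=
    fun V hV => od_sub_neg Z (h3 V hV) (hs.1 hV).2.1
  refine ⟨?_, ?_⟩
  · have h6 := Cfg.Sol.diff (θ := fun _ => 0) subset_rfl (Cfg.dv_M subset_rfl E)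
      (fun V hV => Int.cast_nonneg_iff.2 (C.off V E fun h6 => (hs.1 hV).2.1 (h6 ▸ prm_E h)))
      (fun _ _ => le_rfl) s3 F h5 (Int.cast_pos.2 (hM.trans_eq (mt_comm E F)))
    rw [le_div_iff₀ (Nat.cast_pos.2 Z.r_pos), zero_mul] at h6
    exact_mod_cast h6
  · obtain ⟨z, hz⟩ := Cfg.Sol.int subset_rfl s1 s4 (Cfg.dv_k subset_rfl) s1 F h5
    obtain ⟨z', hz'⟩ := Cfg.Sol.int subset_rfl s1 s4 (Cfg.dv_M subset_rfl E) s2 F h5
    have h6 := (dvd_of_div Z.r_pos hz).sub (dvd_of_div Z.r_pos hz')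
    have h7 := h6.add (dvd_mul_right (Z.r : ℤ) (od F (kP W b)))
    rw [map_sub, map_sub, map_sub, map_nsmul, map_nsmul, od_dv_ne hF hne, nsmul_eq_mul,
      nsmul_eq_mul] at h7
    exact (congrArg _ (by ring)).mp h7

end Crest.Agent.X262.Sub4
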