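import Crest.Agent.X262.Geo.Dv
import Crest.Agent.X262.FG.Fac
import Crest.Agent.X262.FG.Up0
import Crest.Agent.X277.Unf.Main

/-!
# Row 262, SUB (helper4), part 1: a smooth model which is adapted to a divisorial valuation

`Ad b E` : a smooth model `W` on which `E` is a smooth prime divisor with model `Q`; adjunction in
the language of `plV E`.
-/

set_option autoImplicit false

open WithZero
open scoped KaehlerDifferential

noncomputable section

namespace Crest.Agent.X262.Sub4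

open Crest.Agent.X277 Crest.Agent.X277.BD Crest.Agent.X277.Pst Crest.Agent.X277.BD.Cyc
open Crest.Agent.X277.Lef
open Crest.Agent.X277.BD.Br (On oP kP)
open Crest.Agent.X277.Neg (nv isNv_nv)
open Crest.Agent.X277.Res.Log (Bd)
open Crest.Agent.X277.Link (Plc)
open Crest.Agent.X262.Geo

variable {K : Type} [Field K] [Algebra ℂ K] {n : ℕ}

/-- a smooth model which is adapted to `E` -/
structure Ad (b : Module.Basis (Fin (n + 1)) K Ω[K⁄ℂ]) (E : RZ ℂ K) where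
  /-- the model -/
  W : PModel ℂ K
  /-- a generator of `K + E` along `E` -/
  u : K
  /-- the model of `E` -/
  Q : PModel ℂ (Rf E)
  /-- the residue -/
  b' : Module.Basis (Fin n) (Rf E) Ω[Rf E⁄ℂ]
  u_ne : u ≠ 0
  prm : Prm (oP W) E
  val_K : (kP W b + dv W E - pr ℂ u).val E = 1
  res_K : (plV E).res (kP W b + dv W E - pr ℂ u) = kP Q b'
  res_on : ∀ a ∈ On W, a.val E = 1 → (plV E).res a ∈ On Q

theorem exists_plc {E : RZ ℂ K} [Algebra.EssFiniteType ℂ K] (hE : Dvs E) :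
    ∃ p : Plc ℂ K (Rf E), p.v = nv E ∧ FG.pl p = plV E := by
  obtain ⟨v, hv, hu, rfl⟩ : ∃ (v : Valuation K ℤᵐ⁰) (hv : ∀ c : ℂ, v (algebraMap ℂ K c) ≤ 1),
      (∃ t, v t = exp (-1)) ∧ E = rz v hv := ⟨nv E, _, nv_unif hE, (rz_nv hE).symm⟩
  refine ⟨⟨v, (plV (rz v hv)).φ, hu, hv, fun _ => rfl, fun a => ((plV (rz v hv)).ker a).trans ?_,
    surj_plV _⟩, (nv_rz hv hu).symm, rfl⟩
  have h := v_rz_lt_iff v hv (x := a.1) (y := 1)
  rw [map_one, map_one] at h
  exact h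

open FG FG.Fac in
theorem exists_fc' {P : PModel ℂ K} {B : Bd P (n + 1)} {e : B.ι} {E : Type} [Field E]
    [Algebra ℂ E] {p : Plc ℂ K E} (hp : p.v = B.v e) :
    ∃ (b : Module.Basis (Fin (n + 1)) K Ω[K⁄ℂ]) (Φ : Fc B b e E), Φ.p = p := by
  obtain ⟨b₀⟩ := B.exists_basis
  obtain ⟨Q, Φ⟩ := exists_facet B hp b₀
  obtain ⟨x, y, hx, hA, -⟩ := exists_ad hp b₀ Q.B Φ.up
  obtain ⟨w, hw, hr⟩ := p.exists_r (jac Q.b fun i => p.r (y i))⁻¹
  have h1 := hA.jac_res_ne Q.b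
  have h2 : w ≠ 0 := fun h0 => inv_ne_zero h1 (by rw [← hr, h0, p.r_zero])
  have h3 := B.τ_ne e x
  obtain ⟨b, hb⟩ := exists_basis_det b₀ (div_ne_zero (mul_ne_zero h2 hA.ne) h3)
  have h4 : w * jac b₀ (Fin.cons (B.τ e x) y) / B.τ e x * B.τ e x ^ 1 /
      jac b₀ (Fin.cons (B.τ e x) y) ^ 1 = w := by
    have := hA.ne
    field_simp
  have h5 := Plc.isRes_of_ad (bκ := Q.b) hA (h4.symm ▸ hw)
  rw [h4, hr, pow_one, inv_mul_cancel₀ h1, ← hb] at h5
  obtain ⟨Ψ, h6, -⟩ := exists_fc (b := b) (b' := Q.b) hp fun x y hx hy hj => by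
    simpa only [jac_change b₀ b, pow_one, one_mul,
      mul_div_mul_left _ _ (det_basis_ne_zero b₀ b)] using h5 x y hx hy hj
  exact ⟨b, Ψ, h6⟩

variable [Algebra.EssFiniteType ℂ K]

/-- a smooth model which carries given classes and a given prime -/
theorem exists_on_prm (T : Finset (BD ℂ K)) {E : RZ ℂ K} (hE : Dvs E) :
    ∃ P : PModel ℂ K, Prm (oP P) E ∧ ∀ a ∈ T, a ∈ On P := by
  classical
  obtain ⟨c, -, hc⟩ := exists_prm hE
  obtain ⟨P, hP⟩ := Unf.exists_on (insert c T)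
  exact ⟨P, (car_of_On (hP c (by simp))).prm hc, fun a ha => hP a (by simp [ha])⟩

open Classical in
theorem dvs_single {P : PModel ℂ K} {B : Bd P n} {e : B.ι} {E : RZ ℂ K} (hE : Dvs E)
    (he : B.v e = nv E) : FG.dvs B (Pi.single e 1) = dv P E := by
  refine eq_dv (FG.dvs_mem B _) ?_ fun V hV hne => ?_
  · rw [od, FG.ord_eq_od he, FG.Fac.od_single]
  · by_cases h : ∃ e', B.v e' = nv V
    · obtain ⟨e', h⟩ := h
      rw [od, FG.ord_eq_od h, FG.od_dvs, Pi.single_eq_of_ne]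
      rintro rfl
      refine hne ?_
      rw [← rz_nv hV.dvs, ← rz_nv hE]
      congr 1
      exact h.symm.trans he
    · push Not at h
      exact FG.ord_dvs_of_ne (isPD_nv hV) h _

/-- **adapted models exist** -/
theorem exists_ad (b : Module.Basis (Fin (n + 1)) K Ω[K⁄ℂ]) (T : Finset (BD ℂ K)) {E : RZ ℂ K}
    (hE : Dvs E) : ∃ X : Ad b E, ∀ a ∈ T, a ∈ On X.W := by
  classical
  obtain ⟨P, h1, h2⟩ := exists_on_prm T hE
  obtain ⟨W, B, h3, -, h4⟩ := FG.exists_hi (FG.bd0 P b) ∅ fun _ : Unit => dv P E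
  have h5 := prm_up (FG.oP_up h3.iso) h1
  obtain ⟨e, he⟩ : ∃ e, B.v e = nv E := by
    by_contra h0
    push Not at h0
    have h6 := FG.ord_dvs_of_ne (isPD_nv h5) h0 fun e' => FG.od B e' (dv P E)
    rw [← h4 ()] at h6
    exact one_ne_zero ((od_dv_self h1).symm.trans h6)
  obtain ⟨p, h6, h7⟩ := exists_plc hE
  obtain ⟨c, Φ, rfl⟩ := exists_fc' (h6.trans he.symm)
  have h8 : kP W b + dv W E - pr ℂ (b.det c) = kP W c + FG.dvs B (Pi.single e 1) := by
    rw [Br.kP_change b c, dvs_single hE he]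
    abel
  have h9 : ∀ {a : BD ℂ K}, a.val E = 1 ↔ FG.od B e a = 0 := fun {a} => by
    rw [← Φ.val_eq_one, h7]
    rfl
  refine ⟨⟨W, b.det c, Φ.P', Φ.b', det_basis_ne_zero b c, h5, ?_, ?_, fun a ha h => ?_⟩,
    fun a ha => FG.on_up h3.iso (h2 a ha)⟩
  · rw [h8, h9, map_add, Φ.od_K, FG.Fac.od_single, neg_add_cancel]
  · rw [h8, ← h7, Φ.res_K]
  · rw [← h7]
    exact Φ.res_on a ha (h9.1 h)

end Crest.Agent.X262.Sub4
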