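import Crest.Agent.X262.Rl57.Th
import Crest.Agent.X262.Sub14.End
import Crest.Agent.X262.Surf.K3n

/-!
# Row 262, SUB (helper4), part 4: from the ruled threefold to the surface

`ℂ ≤ L ≤ E = L(t)`.

* `exists_cst` : a class from the base which is divisible by `r` upstairs;
* `fib1`, `fib2` : the two inequalities.
-/

set_option autoImplicit false

open scoped KaehlerDifferential IntermediateField

noncomputable section

namespace Crest.Agent.X262.Sub4

open Crest.Agent.X277 Crest.Agent.X277.BD Crest.Agent.X277.Pst Crest.Agent.X277.Lef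
open Crest.Agent.X277.BD.Br (On oP kP)
open Crest.Agent.X277.Neg (nv)
open Crest.Agent.X262.Mod (IsMod Car LeOn EqOn isMod_iff car_self)
open Crest.Agent.X262.Geo Crest.Agent.X262.Loc Crest.Agent.X262.Rl57
open Crest.Agent.X262.Top (K3)

variable {L E : Type} [Field L] [Field E] [Algebra ℂ L] [Algebra ℂ E] [Algebra L E]
  [IsScalarTower ℂ L E] [Algebra.EssFiniteType ℂ L] [Algebra.EssFiniteType ℂ E] {t : E}
  {H Γ D x y : BD ℂ E} {a p B H₀ : BD ℂ L} {r d : ℕ} {Q : PModel ℂ E}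
  {b' : Module.Basis (Fin 3) E Ω[E⁄ℂ]}

local notation "αL" => IsScalarTower.toAlgHom ℂ L E

/-- a class from the base which is divisible by `r` on the generic fibre -/
theorem exists_cst (ht : Transcendental L t) (htop : L⟮t⟯ = ⊤) (hr : 0 < r)
    (hd : dim ℂ E = dim ℂ L + 1) (hH₀ : IsMod H₀) (hc : Car H (pb αL H₀)) (hx : Lin x (pb αL B))
    (h : EqOn H x (r • y)) : ∃ (c : L) (f : E), x = pb αL (B + pr ℂ c) + r • pr ℂ f := by
  have : CharZero L := charZero_of_injective_algebraMap (algebraMap ℂ L).injective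
  have : Algebra.EssFiniteType L E := Algebra.EssFiniteType.of_comp ℂ L E
  obtain ⟨g, hg, rfl⟩ := hx
  have h1 : pr L g = r • up L y := by
    have h2 : up L (pb αL B + pr ℂ g) = up L (r • y) := ext' fun W => by
      by_cases h3 : W.1 = ⊤
      · rw [show W = RZ.top L E from Subtype.ext h3, val_top, val_top]
      · rw [val_up, val_up]
        exact h _ (prm_of_hor hd hH₀ hc W.2 h3)
    rwa [map_add, up_pb _ (fun _ => rfl), zero_add, up_pr, map_nsmul] at h2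
  have h2 : bnum [up L y] = 0 := by
    have h3 := bnum_pr (k := L) g []
    rw [h1, bnum_nsmul] at h3
    exact (mul_eq_zero.1 h3).resolve_left (Nat.cast_pos.2 hr).ne'
  obtain ⟨f, hf, h3⟩ := lin_zero_gn0 (dim_rat ht htop) (gn_rat ht htop) h2
  have h4 : g / f ^ r ∈ (0 : BD L E).Sec := by
    rw [← pr_le_iff (div_ne_zero hg (pow_ne_zero _ hf)), pr_div hg (pow_ne_zero _ hf), pr_pow hf,
      h1, h3, zero_add, sub_self]
  rw [Sec_zero, closed_of_cst (cst_rat ht htop)] at h4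
  obtain ⟨c, h5⟩ := IntermediateField.mem_bot.1 h4
  refine ⟨c, f, ?_⟩
  rw [map_add, pb_pr, add_assoc, ← pr_pow hf, IsScalarTower.toAlgHom_apply, h5,
    ← pr_mul (div_ne_zero hg (pow_ne_zero _ hf)) (pow_ne_zero _ hf),
    div_mul_cancel₀ _ (pow_ne_zero _ hf)]

variable (ht : Transcendental L t) (htop : L⟮t⟯ = ⊤) (hr : 0 < r) (hH : IsMod H)
  (hQ : ∀ V, Prm H V → Prm (oP Q) V) (ha : a.Free) (hb : Big a) (hp : p.Free)
  (hc : Car H (pb (IsScalarTower.toAlgHom ℂ L E) (a + p))) (hΓ : LeOn H 0 Γ)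
  (hor : ∀ V : RZ ℂ E, (∀ c : L, algebraMap L E c ∈ V.1) → Γ.val V = 1) (hD : D.Free)
  (hl : Lin (r • kP Q b' + Γ + D) (pb (IsScalarTower.toAlgHom ℂ L E) (a + p)))

omit [Algebra.EssFiniteType ℂ E] in
include hQ hΓ in
theorem dif (W : PModel ℂ E) (V : RZ ℂ E) (h1 : Prm (oP W) V) (h2 : Prm H V) :
    r * od V (kP W b') ≤ od V (r • kP Q b' + Γ) := by
  have := eft W
  rw [map_add, map_nsmul, nsmul_eq_mul, od_kP_eq (hQ V h2) h1, le_add_iff_nonneg_right]
  simpa using leOn_iff.1 hΓ V h2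

include ht htop hr hH hQ ha hb hp hc hΓ hor hD hl

theorem exists_th (b : Module.Basis (Fin 2) L Ω[L⁄ℂ]) :
    ∃ R : ℕ, 0 < R ∧ ∃ T : BD ℂ L, Lin T (R • (a + p)) ∧ Sub14.Th b (a + p) T (R * r) ∧
      ∀ (W : PModel ℂ E) (P : PModel ℂ L) (V : RZ ℂ E) (w : RZ ℂ L) (m : ℕ),
        Prm (oP W) V → Prm (oP P) w → (∀ x : L, nv V (algebraMap L E x) = nv w x ^ m) →
        R * (r * (m - 1) + od V (r • kP Q b' + Γ) - r * od V (kP W b')) ≤
          m * (od w T - ((R * r : ℕ) : ℤ) * od w (kP P b)) :=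
  rl_th b b' ht htop hr.ne' hD hl hH ((isMod_iff.2 ⟨ha, hb⟩).add hp) hc (dif hQ hΓ)
    fun W V h1 h2 => by
      have h3 := od_kP_le (b := b') Q h1
      rw [map_add, map_nsmul, nsmul_eq_mul, (od_eq_zero h1.dvs).2 (hor V h2)]
      nlinarith [Int.natCast_nonneg r]

/-- **I1** -/
theorem fib1 (P : PModel ℂ L) (c : Module.Basis (Fin 2) L Ω[L⁄ℂ]) (C : BD ℂ L) (h1 : C ∈ On P)
    (h2 : Nef C) (h3 : Car a C) : r * bnum [kP P c, C] ≤ bnum [a + p, C] := by
  obtain ⟨R, hR, T, h4, h5, -⟩ := exists_th ht htop hr hH hQ ha hb hp hc hΓ hor hD hl c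
  have h6 := Sub14.i1 c ((isMod_iff.2 ⟨ha, hb⟩).add hp) h5 h2 (h3.mono ha hp) P h1
  rw [h4.bnum_eq, bnum_nsmul, Nat.cast_mul, mul_assoc] at h6
  exact le_of_mul_le_mul_left h6 (Nat.cast_pos.2 hR)

/-- **I2** -/
theorem fib2 (X : K3 L d) (hx : Lin x (pb αL (p - a))) (h : EqOn H x (r • y)) (h0 : NumZ p) :
    (r * d : ℤ) ≤ 4 * bnum [a, X.L] := by
  have hm := (isMod_iff.2 ⟨ha, hb⟩).add hp
  have h1 : 0 < bnum [a, X.L] := hb.bnum_pos (a := oP X.P) (by simpa using Surf.K3n.nef_L X)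
    (by rw [bnum_swap]; exact X.L_pos)
  obtain ⟨R, hR, T, h2, h3, h4⟩ := exists_th ht htop hr hH hQ ha hb hp hc hΓ hor hD hl X.b
  by_cases h5 : ∃ w, Prm (oP X.P) w ∧ (¬ Prm (a + p) w ∨
      ((R * r : ℕ) : ℤ) ≤ 3 * (od w T - (R * r : ℕ) * od w (kP X.P X.b)))
  · have h6 := Sub14.i2 X hm (((car_self hm.free).nsmul R).of_lin h2) (mul_pos hR hr) h3 h5
    rw [h2.bnum_eq, bnum_nsmul, bnum_add, h0, add_zero, Nat.cast_mul, mul_assoc, mul_left_comm 3]
      at h6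
    have h7 := le_of_mul_le_mul_left h6 (Nat.cast_pos.2 hR)
    omega
  obtain ⟨c, f, h6⟩ := exists_cst ht htop hr (by rw [dim_basis b', dim_basis X.b]) hm hc hx h
  have h7 := Sub14.i3 X (p - a + pr ℂ c) r fun w hw => by
    obtain ⟨h8, h9⟩ := not_or.1 fun h8 => h5 ⟨w, hw, h8⟩
    obtain ⟨V, hV, rfl⟩ := exists_prm_over hH hm hc (not_not.1 h8)
    obtain ⟨-, m, hm0, h10⟩ := exists_ram (L := L) hV.dvs
      fun h4 => hw.1 (eq_top_iff.2 fun x _ => h4 x)
    have h11 := h4 Q X.P V _ m (hQ V hV) hw h10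
    have h12 := dif (r := r) (b' := b') hQ hΓ Q V (hQ V hV) hV
    have h13 : m = 1 := by
      by_contra h13
      have h14 : (2 : ℤ) ≤ m := by exact_mod_cast (by omega : 2 ≤ m)
      have h15 : (0 : ℤ) < (R * r : ℕ) := Nat.cast_pos.2 (mul_pos hR hr)
      have h16 : ((R * r : ℕ) : ℤ) * (m - 1) ≤
          m * (od (rsL L V) T - (R * r : ℕ) * od (rsL L V) (kP X.P X.b)) := by
        refine le_trans ?_ h11
        rw [Nat.cast_mul, mul_assoc]
        exact mul_le_mul_of_nonneg_left (by omega) (Int.natCast_nonneg R)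
      nlinarith
    have h14 := eqOn_iff.1 h V hV
    rw [h6, map_add, od_pb hV.dvs hw.dvs h10, h13, map_nsmul, map_nsmul, Nat.cast_one, one_mul,
      nsmul_eq_mul, nsmul_eq_mul] at h14
    exact ⟨od V y - od V (pr ℂ f), by rw [mul_sub, ← h14, add_sub_cancel_right]⟩
  rw [bnum_add, bnum_pr, add_zero, bnum_sub, h0, zero_sub, dvd_neg] at h7
  have h8 := Int.le_of_dvd h1 h7
  omega

end Crest.Agent.X262.Sub4
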