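import Crest.Agent.X262.Sub4.Num
import Crest.Agent.X262.Sub4.Ad
import Crest.Agent.X262.Bnd79.Main
import Crest.Agent.X262.RC14.Main

/-!
# Row 262, SUB (helper4), part 5: the classes on the exceptional divisor

* `mem_cen`  : the constants of the ruling are the functions on the centre;
* `num`      : the numbers of `K` on the small modification;
* `exists_bd`: the boundary on the exceptional divisor;
* `exists_dv`: `K_Y` is an integral divisor in codimension two along `E`.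
-/

set_option autoImplicit false

open scoped KaehlerDifferential IntermediateField

noncomputable section

namespace Crest.Agent.X262.Sub4

open Crest.Agent.X277 Crest.Agent.X277.BD Crest.Agent.X277.Pst Crest.Agent.X277.Lef
open Crest.Agent.X277.BD.Cyc (Rf plV)
open Crest.Agent.X277.BD.Br (On oP kP kP_mem)
open Crest.Agent.X262.Mod (IsMod Car Gz LeOn EqOn car_pr eqOn_sub)
open Crest.Agent.X262.Geo Crest.Agent.X262.Loc
open Crest.Agent.X262.Sark (TM SameP)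
open Crest.Agent.X262.Bnd (Bs Ext PG2 Srf ctr)
open List (replicate)

variable {K : Type} [Field K] [Algebra ℂ K] [Algebra.EssFiniteType ℂ K] {b : Bs 4 K}
  {Z Y Z' : TM b} {E V : RZ ℂ K} {W : PModel ℂ K} {H : BD ℂ K}

theorem adj (b : Bs 4 K) : Adj b 2 := fun _ _ hH hP => adjAt b hH hP (dim_basis b)

theorem dim_srf (hH : H.Free) (hV : Dvs V) (hs : Srf H V) : dim ℂ (cen H V) = 2 :=
  (End95.dim_ctr hH hV).symm.trans (End95.PG2.dim hs)

/-- the constants of the ruling are the functions on the centre -/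
theorem mem_cen (h : Ext Z Y E) (hs : Srf Y.H E) {F : Type} [Field F] [Algebra ℂ F]
    [Algebra.EssFiniteType ℂ F] [Algebra F (Rf E)] [IsScalarTower ℂ F (Rf E)] (hF : PG2 F)
    {t : Rf E} (ht : Transcendental F t) (htop : F⟮t⟯ = ⊤) :
    (IsScalarTower.toAlgHom ℂ F (Rf E)).fieldRange = cen Y.H E := by
  have hE := (prm_E h).dvs
  have := essFT_Rf hE
  have hd := dim_srf Y.mod.free hE hs
  obtain ⟨⟨s, h1, h2⟩, -⟩ := Bnd79.j1 (d := 2) (dim_basis b) h hd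
  refine le_antisymm ?_ fun x hx => ?_
  · rintro _ ⟨c, rfl⟩
    obtain ⟨y, hy⟩ := End95.hom_mem_sub (End95.PG2.pg hF) h1 (IsScalarTower.toAlgHom ℂ F (Rf E))
      (fun _ => h2 ▸ IntermediateField.mem_top) c
    exact hy ▸ y.2
  · exact End95.hom_mem_sub (End95.PG2.pg (End95.PG2.up hs
      (IntermediateField.inclusion (End95.ctr_le_cen Y.mod.free E)) hd)) ht (cen Y.H E).val
      (fun _ => htop ▸ IntermediateField.mem_top) ⟨x, hx⟩

/-- exceptional divisors with the same centre are contracted along the fibres -/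
theorem dg_same (hs : Srf H E) (hH : H.Free) (hV : Dvs V) (hn : ¬ Prm Z'.H V)
    (hd : dim ℂ (cen H V) = 2) (h1 : Gz H E V) (h2 : Gz H V E) :
    dg V (Z'.κ :: replicate 2 H) = 0 := by
  have := essFT_Rf hV
  obtain ⟨φ⟩ := exists_emb h1 h2 (L := ctr H E) (L' := cen H V) (fun _ => DivB.mem_ctr.1)
    fun _ hx => End95.ctr_le_cen hH V (End95.r_mem_ctr hx)
  have h3 : ctr Z'.H V ≤ cen H V := fun x hx =>
    cf_cl (RC14.rcStmt K b Z' V _ hV hn (End95.PG2.up hs φ hd) x hx)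
  have h4 : cen Z'.H V ≤ cen H V := fun x hx => cf_cl
    ((End95.mem_cl.1 (End95.cen_le_cl Z'.mod.free V hx)).tower_top_of_subalgebra_le
      (A := (ctr Z'.H V).toSubalgebra) (B := (cen H V).toSubalgebra) h3)
  rw [dg_cen_one hH hd, (lin_up_rs Z'.mod.free Z'.car h4).bnum_eq, bnum_zero, mul_zero]

variable (h : Ext Z Y E) (hr : Z.r = Y.r) (hs : Srf Y.H E)
include h hr hs

theorem num (hW : Z.H ∈ On W) (hp : SameP Z.H Z'.H) (hκ : Z'.κ ∈ On W) :
    od E (Z.κ - Y.κ) = Y.r ∧ dg E (Z'.κ :: replicate 2 Y.H) = -(Z'.r * dlV Y.H E) ∧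
      dg E ((kP W b + dv W E) :: replicate 2 Y.H) = -2 * dlV Y.H E :=
  extr (adj b) (dim_basis b) h hr hW (dim_srf Y.mod.free (prm_E h).dvs hs) hp hκ
    fun V h1 h2 h3 h4 h5 => dg_same hs Y.mod.free h1.dvs (fun h6 => h2 ((hp V).2 h6)) h3 h4 h5

omit hs in
theorem dif_at (hW : Z.H ∈ On W) (ha : od E (Z.κ - Y.κ) = Y.r) {w : RZ ℂ (Rf E)}
    (hw : Prm ((plV E).rs Z.H) w) (hV : Prm (oP W) V) (hg : Gz (oP W) ((plV E).cm w) V) :
    0 ≤ od V (Z.κ + (Z.κ - Y.κ) - Z.r • (kP W b + dv W E)) ∧ (Z.r : ℤ) ∣ od V Y.κ := by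
  have hE := (car_of_On hW).prm (prm_E h)
  by_cases h1 : V = E
  · have h2 := od_κ_eq Z hE (prm_E h)
    rw [h1, map_sub, map_add, ha, map_nsmul, map_add, od_dv_self hE, nsmul_eq_mul, h2]
    rw [map_sub, h2] at ha
    exact ⟨by rw [← hr, mul_add, mul_one, sub_self], od E (kP W b) - 1, by
      rw [← hr] at ha
      linarith⟩
  · exact dif_int (adj b) (dim_basis b) h hr hW ha hV h1
      (dg_pos_of_gz Z.mod (prm_E h) hE hV (Ne.symm h1) (dim_basis b) hw hg)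

/-- **the boundary** -/
theorem exists_bd (X : Ad b E) (hW : Z.H ∈ On X.W) (hp : SameP Z.H Z'.H) (hr' : Z'.r = Y.r)
    (hκ : Z'.κ ∈ On X.W) (hle : Z.κ ≤ Z'.κ) :
    ∃ Γ : BD ℂ (Rf E), LeOn ((plV E).rs Z.H) 0 Γ ∧
      (∀ w : RZ ℂ (Rf E), (∀ c ∈ cen Y.H E, c ∈ w.1) → Γ.val w = 1) ∧
      Lin (Y.r • kP X.Q X.b' + Γ) ((plV E).rs (2 • Z'.κ - Y.κ)) := by
  have hE := (prm_E h).dvs
  have := essFT_Rf hE
  have hd := dim_srf Y.mod.free hE hs
  obtain ⟨h1, h2, h3⟩ := num h hr hs hW hp hκ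
  obtain ⟨G, hG⟩ : ∃ G, G = 2 • Z'.κ - Y.κ - Y.r • (kP X.W b + dv X.W E) := ⟨_, rfl⟩
  have h4 : G = Z.κ + (Z.κ - Y.κ) - Z.r • (kP X.W b + dv X.W E) + 2 • (Z'.κ - Z.κ) := by
    rw [hG, hr]
    abel
  have h5 : G.val E = 1 := by
    rw [← od_eq_zero hE, hG, map_sub, map_sub, map_nsmul, map_nsmul, map_add, od_dv_self X.prm,
      od_κ_eq Z' X.prm ((hp E).1 (prm_E h)), nsmul_eq_mul, nsmul_eq_mul, hr']
    rw [map_sub, od_κ_eq Z X.prm (prm_E h), hr] at h1
    push_cast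
    linarith
  have h6 : LeOn ((plV E).rs Z.H) 0 ((plV E).res G) := fun w hw => by
    rw [← Pl.res_zero (p := plV E), Pl.val_res_le_iff (p := plV E) (val_zero _) h5, val_zero]
    refine one_le_val (P := X.W) ?_ fun V h7 h8 => ?_
    · rw [hG]
      exact sub_mem (sub_mem (nsmul_mem hκ 2) (on_of (on_of hW h.car) Y.car))
        (nsmul_mem (add_mem (kP_mem b) (dv_mem E)) _)
    rw [h4, map_add]
    exact add_nonneg (dif_at h hr hW h1 hw h7 h8).1
      (od_nonneg (nsmul_nonneg (sub_nonneg.2 hle) 2))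
  have h7 : dg E (G :: replicate 2 Y.H) = 0 := by
    rw [hG, dg_sub, dg_sub, dg_nsmul, dg_nsmul, h2, h3, Loc.dg_car Y.mod.free hE hd.le Y.car, hr']
    push_cast
    ring
  rw [dg_cen_one Y.mod.free hd, ((Pl.lin_rs_res (p := plV E) h5).up _).bnum_eq] at h7
  have h8 := dim_cen_one hE (dim_basis b) hd
  have h9 : up (cen Y.H E) ((plV E).res G) = 0 := eq_zero_of_deg h8
    (map_zero (up (k := ℂ) (F := Rf E) (cen Y.H E)) ▸ up_le_of_leOn (Pl.free_rs Z.mod.free)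
      (Pl.free_rs Y.mod.free) (car_rs _ h.car) h8 h6)
    ((mul_eq_zero.1 h7).resolve_left (dlV_pos Y.mod.free hE).ne')
  refine ⟨_, h6, fun w hw => ?_, ?_⟩
  · have h10 := val_up (K := cen Y.H E) ((plV E).res G) ⟨w.1, fun c => hw c c.2⟩
    rw [h9, val_zero] at h10
    exact h10.symm
  · have h10 : (Y.r • (kP X.W b + dv X.W E - pr ℂ X.u)).val E = 1 := by
      rw [val_nsmul, X.val_K, one_pow]
    have h11 : (Y.r • (kP X.W b + dv X.W E - pr ℂ X.u) + G).val E = 1 := by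
      rw [val_add, h10, h5, one_mul]
    rw [← X.res_K, ← Pl.res_nsmul (p := plV E) X.val_K, ← Pl.res_add (p := plV E) h10 h5]
    refine (Pl.lin_rs_res (p := plV E) h11).symm.trans
      (Fam.lin_rs_congr _ ⟨(X.u ^ Y.r)⁻¹, inv_ne_zero (pow_ne_zero _ X.u_ne), ?_⟩)
    rw [pr_inv, pr_pow X.u_ne, hG, smul_sub]
    abel

omit hs in
/-- **integrality** -/
theorem exists_int (hW : Z.H ∈ On W) (ha : od E (Z.κ - Y.κ) = Y.r) :
    ∃ x y : BD ℂ (Rf E), Lin x ((plV E).rs Y.κ) ∧ EqOn ((plV E).rs Z.H) x (Y.r • y) := by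
  have hE := (car_of_On hW).prm (prm_E h)
  obtain ⟨y, hy⟩ : ∃ y, y = ∑ V ∈ sp W Y.κ, (od V Y.κ / Y.r) • dv W V := ⟨_, rfl⟩
  have h1 : ∀ V, Prm (oP W) V → (Y.r : ℤ) ∣ od V Y.κ → od V (Y.κ - Y.r • y) = 0 := by
    intro V h1 h2
    rw [map_sub, map_nsmul, hy, od_sum_dv h1 _ (fun V => od V Y.κ / Y.r) fun h3 => by
      rw [not_not.1 fun h4 => h3 (mem_sp.2 ⟨h1, h4⟩), Int.zero_ediv], nsmul_eq_mul,
      Int.mul_ediv_cancel' h2, sub_self]
  have h2 : (Y.κ - Y.r • y).val (plV E).V = 1 := (od_eq_zero hE.dvs).1 (h1 E hE (by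
    rw [map_sub, od_κ_eq Z hE (prm_E h), hr] at ha
    exact ⟨od E (kP W b) - 1, by linarith⟩))
  have h3 := Pl.val_sub_gen (p := plV E) (v_gen y E)
  have h4 : (Y.r • (y - pr ℂ (y.gen E))).val (plV E).V = 1 := by rw [val_nsmul, h3, one_pow]
  refine ⟨(plV E).res (Y.κ - Y.r • y) + Y.r • (plV E).rs y, (plV E).rs y, ?_, fun w hw => ?_⟩
  · refine ((Pl.lin_rs_res h2).symm.add (Fam.lin_rs_nsmul _ _ _).symm).trans
      ((Pl.lin_rs_add _ _).symm.trans ?_)
    rw [sub_add_cancel]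
    exact Lin.rfl
  · have h5 : (Y.κ - Y.r • y).val ((plV E).cm w) = 1 :=
      val_eq_one (sub_mem (on_of (on_of hW h.car) Y.car) (nsmul_mem (hy ▸ sum_dv_mem _ _) _))
        fun V h5 h6 => h1 V h5 (hr ▸ (dif_at h hr hW ha hw h5 h6).2)
    rw [val_add, Pl.val_res (g := 1) h2 (by rw [h5, map_one]), Pl.r_one, map_one, one_mul]

end Crest.Agent.X262.Sub4
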