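import Crest.Agent.X262.Sub4.Geo
import Crest.Agent.X262.Sub4.Fib

/-!
# Row 262, SUB (helper4), part 6: `SubStmt`
-/

set_option autoImplicit false

open scoped KaehlerDifferential IntermediateField

noncomputable section

namespace Crest.Agent.X262.Sub4

open Crest.Agent.X277 Crest.Agent.X277.BD Crest.Agent.X277.Pst Crest.Agent.X277.Lef
open Crest.Agent.X277.BD.Cyc (Rf plV)
open Crest.Agent.X277.BD.Br (On oP kP kP_mem)
open Crest.Agent.X262.Mod (IsMod Car Gz LeOn EqOn car_pr car_of_free)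
open Crest.Agent.X262.Geo Crest.Agent.X262.Loc
open Crest.Agent.X262.Sark (TM SameP Flip)
open Crest.Agent.X262.Bnd (Bs Ext PG2 Srf fdg al SubStmt)
open Crest.Agent.X262.Top (K3)
open List (replicate)

variable {K : Type} [Field K] [Algebra ℂ K] [Algebra.EssFiniteType ℂ K] {b : Bs 4 K}
  {Z Y Z' : TM b} {E : RZ ℂ K} {A : BD ℂ K}

omit [Algebra.EssFiniteType ℂ K] in
theorem sameP_of_flips (h : Relation.ReflTransGen (Flip b A) Z Z') : SameP Z.H Z'.H := by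
  induction h with
  | refl => exact SameP.rfl
  | tail _ h ih =>
    obtain ⟨X, -, h1, h2, -⟩ := h
    exact ih.trans (h1.symm.trans h2)

/-- the class of an ample divisor on the centre is big -/
theorem big_of_lin (h : Ext Z Y E) (hs : Srf Y.H E) {N : BD ℂ K} (hN : N.Free) (h1 : Car Y.H N)
    (h2 : Car N Y.H) {F : Type} [Field F] [Algebra ℂ F] [Algebra.EssFiniteType ℂ F]
    [Algebra F (Rf E)] [IsScalarTower ℂ F (Rf E)] (hF : dim ℂ F = 2) {a : BD ℂ F} (ha : a.Free)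
    (hl : Lin ((plV E).rs N) (pb (IsScalarTower.toAlgHom ℂ F (Rf E)) a)) : Big a := by
  have hE := (prm_E h).dvs
  have := essFT_Rf hE
  have : CharZero F := charZero_of_injective_algebraMap (algebraMap ℂ F).injective
  have : Algebra.EssFiniteType F (Rf E) := Algebra.EssFiniteType.of_comp ℂ F (Rf E)
  have h3 := dg_pos_cen (d := 2) Z.mod (prm_E h) hN (dim_basis b) (by
    rw [le_antisymm (cen_le Y.mod.free h1 E) (cen_le hN h2 E)]
    exact dim_srf Y.mod.free hE hs)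
  have h4 := bnum_congr (List.Forall₂.cons (Lin.rfl (a := (plV E).rs Z.H))
    (List.Forall₂.cons hl (List.Forall₂.cons hl List.Forall₂.nil))) []
  have h5 := bnum_prj [(plV E).rs Z.H] (lam := [a, a]) hF.symm
  rw [dg_eq] at h3
  have h6 := h3.trans_eq (h4.trans h5)
  rw [ha.nef.big_iff, hF]
  exact (bnum_nonneg (all_rp ha.nef 2)).lt_of_ne fun h7 => by
    rw [show bnum [a, a] = 0 from h7.symm, zero_mul] at h6
    exact h6.false

/-- the statement for models with the same index -/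
theorem core (h : Ext Z Y E) (hr : Z.r = Y.r) (hs : Srf Y.H E) (hp : SameP Z.H Z'.H)
    (hr' : Z'.r = Y.r) (hA : A.Free) (hc : Car Y.H A) (hN : (A - Y.κ - Y.H).Free)
    (hM : (A - Z'.κ).Free) {F : Type} [Field F] [Algebra ℂ F] [Algebra.EssFiniteType ℂ F]
    [Algebra F (Rf E)] [IsScalarTower ℂ F (Rf E)] {δ : ℕ} (k : K3 F δ) {t : Rf E}
    (ht : Transcendental F t) (htop : F⟮t⟯ = ⊤) {α : F →ₐ[ℂ] Rf E}
    (hα : α = IsScalarTower.toAlgHom ℂ F (Rf E)) :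
    A - Z'.κ ≤ A - Y.κ ∧ EqOn Y.H (A - Z'.κ) (A - Y.κ) ∧ od E (A - Y.κ - (A - Z'.κ)) = Y.r ∧
      fdg E α.fieldRange (A - Z'.κ) = Y.r ∧ ∃ a p : BD ℂ F, a.Free ∧ Big a ∧ p.Free ∧
      Lin ((plV E).rs (A - Y.κ)) (pb α a) ∧ Lin ((plV E).rs A) (pb α p) ∧
      (∀ (Q : PModel ℂ F) (c : Bs 2 F) (D : BD ℂ F), D ∈ On Q → Nef D → Car a D →
        Y.r * bnum [kP Q c, D] ≤ bnum [a + p, D]) ∧
      (NumZ p → (Y.r * δ : ℤ) ≤ 4 * bnum [a, k.L]) := by
  classical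
  subst hα
  have hE := (prm_E h).dvs
  have := essFT_Rf hE
  have hd := dim_srf Y.mod.free hE hs
  have hF := mem_cen h hs (End95.pg2_k3 k) ht htop
  obtain ⟨X, hX⟩ := exists_ad b {Z.H, Z'.κ} hE
  have hW := hX Z.H (by simp)
  have hκ := hX Z'.κ (by simp)
  obtain ⟨h1, h2, -⟩ := num h hr hs hW hp hκ
  have h3 : EqOn Z.H Z'.κ Z.κ := fun V hV => by
    rw [Z.κ_eq _ V ((car_of_On hW).prm hV) hV, Z'.κ_eq _ V ((car_of_On hW).prm hV) ((hp V).1 hV),
      hr, hr']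
  have h4 : EqOn Y.H (A - Z'.κ) (A - Y.κ) := EqOn.rfl.sub fun V hV => by
    have h4 := (car_of_On hW).prm (h.car.prm hV)
    rw [Y.κ_eq _ V h4 hV, Z'.κ_eq _ V h4 ((hp V).1 (h.car.prm hV)), hr']
  have h5 : Car Y.H (A - Y.κ) := hc.sub Y.car
  have h6 : Z.κ ≤ Z'.κ := (sub_le_sub_iff_left A).1 (((h.car.trans Z.mod.free hc).sub
    Z.car).le_of_free Z.mod hM (EqOn.rfl.sub h3).le)
  have h7 : (A - Y.κ).Free := by simpa using hN.add Y.mod.free
  obtain ⟨a, ha, h8⟩ := exists_pb_hom _ (Pl.free_rs (p := plV E) h7)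
    ((cen_le Y.mod.free h5 E).trans hF.ge)
  obtain ⟨p, hp', h9⟩ := exists_pb_hom _ (Pl.free_rs (p := plV E) hA)
    ((cen_le Y.mod.free hc E).trans hF.ge)
  have hb := big_of_lin h hs h7 h5 (car_of_free h7 Y.mod.free (n := 1) (by rwa [one_nsmul]))
    (dim_basis k.b) ha h8
  have h10 : Lin ((plV E).rs (A - Y.κ + A)) (pb (IsScalarTower.toAlgHom ℂ F (Rf E)) (a + p)) :=
    map_add (pb (IsScalarTower.toAlgHom ℂ F (Rf E))) a p ▸ (Pl.lin_rs_add _ _).trans (h8.add h9)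
  obtain ⟨Γ, g1, g2, g3⟩ := exists_bd h hr hs X hW hp hr' hκ h6
  obtain ⟨x, y, g4, g5⟩ := exists_int h hr hW h1
  have g6 : ∀ V, Prm ((plV E).rs Z.H) V → Prm (oP X.Q) V := fun V =>
    (car_of_On (X.res_on _ (sub_mem hW (car_iff_On.1 (car_pr _)))
      (Pl.val_sub_gen (p := plV E) (v_gen Z.H E)))).prm
  have g7 := (car_rs (plV E) (h.car.trans Z.mod.free (h5.add hc))).of_lin h10.symm
  have g8 : ∀ V : RZ ℂ (Rf E), (∀ c : F, algebraMap F (Rf E) c ∈ V.1) → Γ.val V = 1 :=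
    fun V hV => g2 V fun c hc => by
      obtain ⟨z, rfl⟩ := hF.ge hc
      exact hV z
  have g9 : Lin (Y.r • kP X.Q X.b' + Γ + (plV E).rs (2 • (A - Z'.κ)))
      (pb (IsScalarTower.toAlgHom ℂ F (Rf E)) (a + p)) := by
    refine (g3.add Lin.rfl).trans ((Pl.lin_rs_add _ _).symm.trans ?_)
    rwa [show 2 • Z'.κ - Y.κ + 2 • (A - Z'.κ) = A - Y.κ + A by abel]
  have g10 : Lin x (pb (IsScalarTower.toAlgHom ℂ F (Rf E)) (p - a)) := by
    have g10 := (Fam.lin_rs_sub (plV E) A (A - Y.κ)).trans (lin_sub h9 h8)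
    rw [sub_sub_cancel, ← map_sub] at g10
    exact g4.trans g10
  have g11 := isMod_rs Z.mod (prm_E h)
  have g12 := Pl.free_rs (p := plV E) (hM.nsmul 2)
  refine ⟨h5.le_of_free Y.mod hM h4.le, h4, ?_, ?_, a, p, ha, hb, hp', h8, h9,
    fib1 ht htop Y.r_pos g11 g6 ha hb hp' g7 g1 g8 g12 g9,
    fib2 ht htop Y.r_pos g11 g6 ha hb hp' g7 g1 g8 g12 g9 k g10 g5⟩
  · rw [sub_sub_sub_cancel_left, map_sub, (od_eq_iff hE).2 (h3 E (prm_E h)), ← map_sub, h1]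
  · rw [hF, End95.fdg_eq]
    refine mul_left_cancel₀ (dlV_pos Y.mod.free hE).ne' ?_
    rw [← dg_cen_one Y.mod.free hd, dg_sub, h2, Loc.dg_car Y.mod.free hE hd.le hc, hr']
    ring

/-- **SUB** -/
theorem subStmt : SubStmt := by
  intro K _ _ _ b A Z d F _ _ _ δ k e _ hs
  obtain ⟨q, l, hq, h1⟩ := d.Y.anti
  obtain ⟨ρ, c, hρ, h2⟩ := d.nef
  replace h2 : (c • d.Y.A + ρ • -d.Zc.κ).Free := by rwa [d.hA]
  let _ : Algebra F (Rf d.E) := (al e).toRingHom.toAlgebra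
  have : IsScalarTower ℂ F (Rf d.E) :=
    IsScalarTower.of_algebraMap_eq fun c => ((al e).commutes c).symm
  let e' : RatFunc F ≃ₐ[F] Rf d.E := { e.symm with commutes' := fun _ => rfl }
  have ht : Transcendental F (e' RatFunc.X) := fun h =>
    RatFunc.transcendental_X ((isAlgebraic_algHom_iff e'.toAlgHom e'.injective).1 h)
  have htop : F⟮e' RatFunc.X⟯ = ⊤ := by
    have h3 := congrArg (IntermediateField.map e'.toAlgHom) (RatFunc.adjoin_X (K := F))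
    rw [IntermediateField.adjoin_map, Set.image_singleton, ← AlgHom.fieldRange_eq_map] at h3
    exact h3.trans (eq_top_iff.2 fun x _ => e'.surjective x)
  obtain ⟨j, hj⟩ : ∃ j, ρ * Z.r * d.Zc.r = j + 1 :=
    Nat.exists_eq_add_one_of_ne_zero (mul_pos (mul_pos hρ Z.r_pos) d.Zc.r_pos).ne'
  have h3 : (((j + 1) * l + q * d.Y.r * Z.r * c) • d.Y.A - ((j + 1) * q) • d.Y.κ - d.Y.H).Free := by
    convert ((h1.nsmul (j + 1)).add (d.Y.mod.free.nsmul j)).add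
      (d.Y.A_free.nsmul (q * d.Y.r * Z.r * c)) using 1
    module
  have h4 : (((j + 1) * l + q * d.Y.r * Z.r * c) • d.Y.A -
      (q * d.Y.r * Z.r * ρ) • d.Zc.κ).Free := by
    convert (h2.nsmul (q * d.Y.r * Z.r)).add (d.Y.A_free.nsmul ((j + 1) * l)) using 1
    module
  have h5 : 0 < (j + 1) * q := mul_pos j.succ_pos hq
  obtain ⟨g1, g2, g3, g4, a, p, g5, g6, g7, g8, g9, g10, g11⟩ :=
    core (Z := sc Z (q * d.Y.r * ρ * d.Zc.r)
      (mul_pos (mul_pos (mul_pos hq d.Y.r_pos) hρ) d.Zc.r_pos)) (Y := sc d.Y.toTM _ h5)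
      (Z' := sc d.Zc (q * d.Y.r * Z.r * ρ) (mul_pos (mul_pos (mul_pos hq d.Y.r_pos) Z.r_pos) hρ))
      ⟨d.car, d.nE, d.prm⟩ (by simp only [sc, ← hj]; ring) hs (sameP_of_flips d.flips :)
      (by simp only [sc, ← hj]; ring) (d.Y.A_free.nsmul _) (d.Y.A_car.nsmul _) h3 h4 k ht htop
      (α := al e) (AlgHom.ext fun _ => rfl)
  exact ⟨⟨_, _, _, a, p, h5, h3, h4, g1, g2, g3, g4, g5, g6, g7, g8, g9, g10, g11⟩⟩

end Crest.Agent.X262.Sub4
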